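import Mathlib

/-!
# P271, row 13-LOCE: averaging over translates in one complex direction
-/

open MeasureTheory Metric Set Filter Topology Complex
open scoped ENNReal NNReal Real

namespace Vale.Agent.P271.LOCE

variable {E : Type*} [NormedAddCommGroup E] [NormedSpace ℂ E] [MeasurableSpace E] [BorelSpace E]
  [SecondCountableTopology E] (μ : Measure E) [SFinite μ]

/-- Tonelli for the set `w + ζ • e ∈ S`. -/
theorem avg_swap (e : E) {S : Set E} (hS : MeasurableSet S) (D : Set ℂ)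
    (B : Set E) :
    ∫⁻ ζ in D, μ {w ∈ B | w + ζ • e ∈ S} =
      ∫⁻ w in B, (volume.restrict D) {ζ : ℂ | w + ζ • e ∈ S} ∂μ := by
  have hm : MeasurableSet {z : ℂ × E | z.2 + z.1 • e ∈ S} := by
    have : Measurable (fun z : ℂ × E => z.2 + z.1 • e) := by fun_prop
    exact this hS
  have h1 : ∀ ζ : ℂ, μ {w ∈ B | w + ζ • e ∈ S} =
      ∫⁻ w in B, indicator {z : ℂ × E | z.2 + z.1 • e ∈ S} (fun _ => (1 : ℝ≥0∞)) (ζ, w) ∂μ := by
    intro ζ
    have h2 : (fun w : E => indicator {z : ℂ × E | z.2 + z.1 • e ∈ S} (fun _ => (1 : ℝ≥0∞)) (ζ, w)) =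
        indicator {w : E | w + ζ • e ∈ S} (fun _ => (1 : ℝ≥0∞)) := by
      ext w
      simp [indicator]
    have h3 : MeasurableSet {w : E | w + ζ • e ∈ S} := by
      have : Measurable (fun w : E => w + ζ • e) := by fun_prop
      exact this hS
    rw [h2, lintegral_indicator h3, setLIntegral_one, Measure.restrict_apply h3]
    congr 1
    ext w
    simp [and_comm]
  have h2 : ∀ w : E, (volume.restrict D) {ζ : ℂ | w + ζ • e ∈ S} =
      ∫⁻ ζ in D, indicator {z : ℂ × E | z.2 + z.1 • e ∈ S} (fun _ => (1 : ℝ≥0∞)) (ζ, w) := by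
    intro w
    have h2 : (fun ζ : ℂ => indicator {z : ℂ × E | z.2 + z.1 • e ∈ S} (fun _ => (1 : ℝ≥0∞)) (ζ, w)) =
        indicator {ζ : ℂ | w + ζ • e ∈ S} (fun _ => (1 : ℝ≥0∞)) := by
      ext ζ
      simp [indicator]
    have h3 : MeasurableSet {ζ : ℂ | w + ζ • e ∈ S} := by
      have : Measurable (fun ζ : ℂ => w + ζ • e) := by fun_prop
      exact this hS
    rw [h2, lintegral_indicator h3, setLIntegral_one]
  simp only [h1, h2]
  rw [lintegral_lintegral_swap]
  exact (measurable_const.indicator hm).aemeasurable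

theorem avg_upper [μ.IsAddRightInvariant] (e : E) {S : Set E} (hS : MeasurableSet S) {D : Set ℂ}
    (hD : MeasurableSet D) {B' B : Set E} (hB : MeasurableSet B) (hsub : ∀ ζ ∈ D, ∀ w, w + ζ • e ∈ B' → w ∈ B) {A : ℝ≥0∞}
    (hA : ∀ w ∈ B, (volume.restrict D) {ζ : ℂ | w + ζ • e ∈ S} ≤ A) :
    μ (B' ∩ S) * volume D ≤ A * μ B := by
  calc μ (B' ∩ S) * volume D = ∫⁻ ζ in D, μ (B' ∩ S) := by
        rw [lintegral_const, Measure.restrict_apply_univ]
    _ ≤ ∫⁻ ζ in D, μ {w ∈ B | w + ζ • e ∈ S} := by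
        refine setLIntegral_mono' hD ?_
        intro ζ hζ
        rw [← measure_preimage_add_right μ (ζ • e) (B' ∩ S)]
        refine measure_mono ?_
        rintro w ⟨h1, h2⟩
        exact ⟨hsub ζ hζ w h1, h2⟩
    _ = ∫⁻ w in B, (volume.restrict D) {ζ : ℂ | w + ζ • e ∈ S} ∂μ := avg_swap μ e hS D B
    _ ≤ ∫⁻ w in B, A ∂μ := setLIntegral_mono' hB hA
    _ = A * μ B := by rw [lintegral_const, Measure.restrict_apply_univ]

theorem avg_lower [μ.IsAddRightInvariant] (e : E) {S : Set E} (hS : MeasurableSet S) {D : Set ℂ}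
    (hD : MeasurableSet D) {B' B : Set E} (hB : MeasurableSet B)
    (hsub : ∀ ζ ∈ D, ∀ w ∈ B, w + ζ • e ∈ B') {A : ℝ≥0∞}
    (hA : ∀ w ∈ B, A ≤ (volume.restrict D) {ζ : ℂ | w + ζ • e ∈ S}) :
    A * μ B ≤ μ (B' ∩ S) * volume D := by
  calc A * μ B = ∫⁻ w in B, A ∂μ := by rw [lintegral_const, Measure.restrict_apply_univ]
    _ ≤ ∫⁻ w in B, (volume.restrict D) {ζ : ℂ | w + ζ • e ∈ S} ∂μ := setLIntegral_mono' hB hA
    _ = ∫⁻ ζ in D, μ {w ∈ B | w + ζ • e ∈ S} := (avg_swap μ e hS D B).symm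
    _ ≤ ∫⁻ ζ in D, μ (B' ∩ S) := by
        refine setLIntegral_mono' hD ?_
        intro ζ hζ
        rw [← measure_preimage_add_right μ (ζ • e) (B' ∩ S)]
        refine measure_mono ?_
        rintro w ⟨h1, h2⟩
        exact ⟨hsub ζ hζ w h1, h2⟩
    _ = μ (B' ∩ S) * volume D := by
        rw [lintegral_const, Measure.restrict_apply_univ]

end Vale.Agent.P271.LOCE
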