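import Mathlib

/-!
# P271, row 13-LOCE: divided differences of holomorphic functions and sublevel sets on a disc
-/

open MeasureTheory Metric Set Filter Topology Complex
open scoped ENNReal NNReal Real

namespace Vale.Agent.P271.LOCE

/-- Partial fractions with simple poles. -/
theorem partial_fractions {k : ℕ} (ζ : Fin (k + 1) → ℂ) (hζ : Function.Injective ζ) (s : ℂ)
    (hs : ∀ i, s ≠ ζ i) :
    (∏ i, (s - ζ i))⁻¹ =
      ∑ i, (∏ j ∈ Finset.univ.erase i, (ζ i - ζ j))⁻¹ * (s - ζ i)⁻¹ := by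
  have h := Lagrange.sum_basis (F := ℂ) (s := (Finset.univ : Finset (Fin (k + 1)))) (v := ζ)
    (hζ.injOn) ⟨0, Finset.mem_univ _⟩
  have h2 := congrArg (Polynomial.eval s) h
  rw [Polynomial.eval_finsetSum, Polynomial.eval_one] at h2
  have hne : (∏ i, (s - ζ i)) ≠ 0 := Finset.prod_ne_zero_iff.2 fun i _ => sub_ne_zero.2 (hs i)
  have key : ∀ i : Fin (k + 1), (∏ j ∈ Finset.univ.erase i, (ζ i - ζ j))⁻¹ * (s - ζ i)⁻¹ =
      (∏ i, (s - ζ i))⁻¹ * Polynomial.eval s (Lagrange.basis Finset.univ ζ i) := by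
    intro i
    have h3 : Polynomial.eval s (Lagrange.basis Finset.univ ζ i) =
        (∏ j ∈ Finset.univ.erase i, (ζ i - ζ j))⁻¹ * ∏ j ∈ Finset.univ.erase i, (s - ζ j) := by
      rw [Lagrange.basis, Polynomial.eval_prod, ← Finset.prod_inv_distrib,
        ← Finset.prod_mul_distrib]
      refine Finset.prod_congr rfl fun j _ => ?_
      rw [Lagrange.basisDivisor]
      simp
    rw [h3, ← Finset.mul_prod_erase Finset.univ (fun i => s - ζ i) (Finset.mem_univ i)]
    have h4 : (∏ j ∈ Finset.univ.erase i, (s - ζ j)) ≠ 0 :=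
      Finset.prod_ne_zero_iff.2 fun j _ => sub_ne_zero.2 (hs j)
    have h5 : s - ζ i ≠ 0 := sub_ne_zero.2 (hs i)
    rw [mul_inv]
    field_simp
  rw [Finset.sum_congr rfl fun i _ => key i, ← Finset.mul_sum, h2, mul_one]

/-- Divided difference as a Cauchy integral over the circle of radius `ρ`. -/
noncomputable def dd {k : ℕ} (g : ℂ → ℂ) (ρ : ℝ) (ζ : Fin (k + 1) → ℂ) : ℂ :=
  (2 * π * I : ℂ)⁻¹ • ∮ s in C(0, ρ), (∏ i, (s - ζ i))⁻¹ • g s

theorem dd_eq {k : ℕ} {g : ℂ → ℂ} {ρ : ℝ} (hg : DiffContOnCl ℂ g (ball 0 ρ))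
    (ζ : Fin (k + 1) → ℂ) (hζ : Function.Injective ζ) (hin : ∀ i, ζ i ∈ ball (0 : ℂ) ρ) :
    dd g ρ ζ = ∑ i, (∏ j ∈ Finset.univ.erase i, (ζ i - ζ j))⁻¹ * g (ζ i) := by
  have hρ : 0 < ρ := by
    have := hin 0
    exact pos_of_mem_ball this
  have hcl : ContinuousOn g (closedBall 0 ρ) := hg.continuousOn_ball
  have hint : ∀ i, CircleIntegrable (fun s => (s - ζ i)⁻¹ • g s) 0 ρ := by
    intro i
    apply ContinuousOn.circleIntegrable hρ.le
    refine ContinuousOn.fun_smul (f := fun s => (s - ζ i)⁻¹) (g := g) ?_ ?_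
    · apply ContinuousOn.inv₀
      · fun_prop
      · intro s hs h
        have h1 := sub_eq_zero.1 h
        rw [h1] at hs
        have h2 := hin i
        rw [mem_sphere] at hs
        rw [mem_ball] at h2
        exact (ne_of_lt h2) hs
    · exact hcl.mono sphere_subset_closedBall
  have h1 : (∮ s in C(0, ρ), (∏ i, (s - ζ i))⁻¹ • g s) =
      ∮ s in C(0, ρ), ∑ i, (∏ j ∈ Finset.univ.erase i, (ζ i - ζ j))⁻¹ • ((s - ζ i)⁻¹ • g s) := by
    apply circleIntegral.integral_congr hρ.le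
    intro s hs
    have hs' : ∀ i, s ≠ ζ i := by
      intro i h
      have h2 := hin i
      rw [mem_sphere] at hs
      rw [mem_ball, ← h] at h2
      exact (ne_of_lt h2) hs
    simp only
    rw [partial_fractions ζ hζ s hs', Finset.sum_smul]
    refine Finset.sum_congr rfl fun i _ => ?_
    rw [mul_smul]
  unfold dd
  rw [h1]
  have h2 : (∮ s in C(0, ρ), ∑ i, (∏ j ∈ Finset.univ.erase i, (ζ i - ζ j))⁻¹ •
      ((s - ζ i)⁻¹ • g s)) =
      ∑ i, ∮ s in C(0, ρ), (∏ j ∈ Finset.univ.erase i, (ζ i - ζ j))⁻¹ • ((s - ζ i)⁻¹ • g s) := by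
    have := circleIntegral.integral_fun_sum (c := (0:ℂ)) (R := ρ) (s := (Finset.univ : Finset (Fin (k+1))))
      (f := fun i s => (∏ j ∈ Finset.univ.erase i, (ζ i - ζ j))⁻¹ • ((s - ζ i)⁻¹ • g s))
      (fun i _ => ?_)
    · exact this
    · exact (hint i).const_smul
  rw [h2, Finset.smul_sum]
  refine Finset.sum_congr rfl fun i _ => ?_
  rw [circleIntegral.integral_smul, smul_comm,
    hg.two_pi_i_inv_smul_circleIntegral_sub_inv_smul (hin i), smul_eq_mul]


theorem dd_norm_le {k : ℕ} {g : ℂ → ℂ} {ρ : ℝ} (hg : DiffContOnCl ℂ g (ball 0 ρ))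
    (ζ : Fin (k + 1) → ℂ) (hin : ∀ i, ζ i ∈ ball (0 : ℂ) ρ) {r ε : ℝ} (hr : 0 < r)
    (hsep : ∀ i j, i ≠ j → r ≤ dist (ζ i) (ζ j)) (hε : ∀ i, ‖g (ζ i)‖ ≤ ε) :
    ‖dd g ρ ζ‖ ≤ (k + 1) * ((r ^ k)⁻¹ * ε) := by
  have hinj : Function.Injective ζ := by
    intro i j hij
    by_contra hne
    have := hsep i j hne
    rw [hij, dist_self] at this
    linarith
  have hε0 : 0 ≤ ε := (norm_nonneg _).trans (hε 0)
  rw [dd_eq hg ζ hinj hin]
  refine (norm_sum_le _ _).trans ?_
  have h1 : ∀ i ∈ (Finset.univ : Finset (Fin (k + 1))),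
      ‖(∏ j ∈ Finset.univ.erase i, (ζ i - ζ j))⁻¹ * g (ζ i)‖ ≤ (r ^ k)⁻¹ * ε := by
    intro i _
    rw [norm_mul, norm_inv, norm_prod]
    refine mul_le_mul ?_ (hε i) (norm_nonneg _) (by positivity)
    apply inv_anti₀ (by positivity)
    calc r ^ k = ∏ _j ∈ Finset.univ.erase i, r := by
          rw [Finset.prod_const, Finset.card_erase_of_mem (Finset.mem_univ i)]
          simp
      _ ≤ ∏ j ∈ Finset.univ.erase i, ‖ζ i - ζ j‖ := by
          refine Finset.prod_le_prod (fun _ _ => hr.le) fun j hj => ?_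
          rw [← dist_eq_norm]
          exact hsep i j (Finset.ne_of_mem_erase hj).symm
  refine (Finset.sum_le_sum h1).trans ?_
  rw [Finset.sum_const, Finset.card_univ, Fintype.card_fin, nsmul_eq_mul]
  push_cast
  exact le_rfl

/-- If `S` has no `k+1` points at mutual distances `≥ r`, it is covered by `k` balls of radius `r`. -/
theorem cover_of_no_sep {X : Type*} [PseudoMetricSpace X] [Nonempty X] {S : Set X} {r : ℝ} (k : ℕ)
    (h : ¬ ∃ ζ : Fin (k + 1) → X, (∀ i, ζ i ∈ S) ∧ ∀ i j, i ≠ j → r ≤ dist (ζ i) (ζ j)) :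
    ∃ ζ : Fin k → X, S ⊆ ⋃ i, ball (ζ i) r := by
  induction k with
  | zero =>
    refine ⟨Fin.elim0, ?_⟩
    intro x hx
    exfalso
    apply h
    refine ⟨fun _ => x, fun _ => hx, ?_⟩
    intro i j hij
    exact absurd (Fin.ext (by omega)) hij
  | succ k ih =>
    by_cases h1 : ∃ ζ : Fin (k + 1) → X, (∀ i, ζ i ∈ S) ∧ ∀ i j, i ≠ j → r ≤ dist (ζ i) (ζ j)
    · obtain ⟨ζ, hζ, hsep⟩ := h1
      refine ⟨ζ, ?_⟩
      intro x hx
      by_contra hcon
      apply h
      rw [mem_iUnion] at hcon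
      push Not at hcon
      have hfar : ∀ i, r ≤ dist x (ζ i) := by
        intro i
        have := hcon i
        rw [mem_ball, not_lt] at this
        exact this
      refine ⟨Fin.cons x ζ, ?_, ?_⟩
      · intro i
        refine Fin.cases ?_ (fun j => ?_) i
        · simpa using hx
        · simpa using hζ j
      · intro i j
        refine Fin.cases ?_ (fun i' => ?_) i
        · refine Fin.cases ?_ (fun j' => ?_) j
          · intro hh
            exact absurd rfl hh
          · intro _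
            simpa using hfar j'
        · refine Fin.cases ?_ (fun j' => ?_) j
          · intro _
            have := hfar i'
            rw [dist_comm] at this
            simpa using this
          · intro hh
            have : i' ≠ j' := by
              intro hij
              exact hh (by rw [hij])
            simpa using hsep i' j' this
    · obtain ⟨ζ, hζ⟩ := ih h1
      obtain ⟨x0⟩ := ‹Nonempty X›
      refine ⟨Fin.cons x0 ζ, ?_⟩
      intro x hx
      obtain ⟨i, hi⟩ := mem_iUnion.1 (hζ hx)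
      rw [mem_iUnion]
      exact ⟨i.succ, by simpa using hi⟩

/-- A nonzero function has a nonvanishing Taylor coefficient. -/
theorem exists_dd_ne {g : ℂ → ℂ} {ρ : ℝ} (hρ : 0 < ρ) (hg : DiffContOnCl ℂ g (ball 0 ρ))
    (hne : ∃ z ∈ ball (0 : ℂ) ρ, g z ≠ 0) : ∃ k : ℕ, dd g ρ (fun _ : Fin (k + 1) => 0) ≠ 0 := by
  by_contra hcon
  push Not at hcon
  obtain ⟨z, hz, hgz⟩ := hne
  lift ρ to ℝ≥0 using hρ.le
  have hs := hg.hasFPowerSeriesOnBall (by exact_mod_cast hρ)
  have h1 := hs.hasSum (y := z) (by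
    rw [Metric.mem_eball, edist_zero_right]
    rw [mem_ball_zero_iff] at hz
    rw [← ofReal_norm]
    rw [← ENNReal.ofReal_coe_nnreal]
    exact (ENNReal.ofReal_lt_ofReal_iff hρ).2 hz)
  rw [zero_add] at h1
  have h2 : ∀ n, (cauchyPowerSeries g 0 ρ n fun _ => z) = 0 := by
    intro n
    rw [cauchyPowerSeries_apply]
    have h3 := hcon n
    unfold dd at h3
    have h4 : (∮ s in C((0:ℂ), (ρ:ℝ)), (z / (s - 0)) ^ n • (s - 0)⁻¹ • g s) =
        z ^ n • ∮ s in C((0:ℂ), (ρ:ℝ)), (∏ _i : Fin (n + 1), (s - 0))⁻¹ • g s := by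
      rw [← circleIntegral.integral_smul]
      congr 1
      ext s
      simp only [sub_zero, Finset.prod_const, Finset.card_univ, Fintype.card_fin, smul_eq_mul]
      rw [div_pow, pow_succ, mul_inv, div_eq_mul_inv]
      ring
    rw [h4, smul_comm, h3, smul_zero]
  simp only [h2] at h1
  exact hgz (h1.unique hasSum_zero)

end Vale.Agent.P271.LOCE
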