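import Mathlib
import Vale.Agent.P271.LOCE.Div

/-!
# P271, row 13-LOCE: sublevel sets of a holomorphic function, slice version with parameters
-/

open MeasureTheory Metric Set Filter Topology Complex
open scoped ENNReal NNReal Real

namespace Vale.Agent.P271.LOCE

variable {E : Type*} [NormedAddCommGroup E] [NormedSpace ℂ E]

/-- the slice `s ↦ f (w + s • e)` -/
def slice (f : E → ℂ) (w e : E) : ℂ → ℂ := fun s => f (w + s • e)

theorem slice_diffContOnCl {f : E → ℂ} {U : Set E} (hU : IsOpen U) (hf : DifferentiableOn ℂ f U)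
    {w e : E} {c : ℂ} {ρ : ℝ} (h : ∀ s ∈ closedBall c ρ, w + s • e ∈ U) :
    DiffContOnCl ℂ (slice f w e) (ball c ρ) := by
  apply DifferentiableOn.diffContOnCl
  intro s hs
  have hs' : s ∈ closedBall c ρ := closure_ball_subset_closedBall hs
  have h1 : DifferentiableAt ℂ f (w + s • e) := (hf _ (h s hs')).differentiableAt
    (hU.mem_nhds (h s hs'))
  have h2 : DifferentiableAt ℂ (fun s : ℂ => w + s • e) s := by fun_prop
  exact (h1.comp s h2).differentiableWithinAt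

/-- Uniform lower bound of the divided difference. -/
theorem exists_slice_dd {f : E → ℂ} {U : Set E} (hU : IsOpen U) (hf : DifferentiableOn ℂ f U)
    {p e : E} {ρ : ℝ} (hρ : 0 < ρ) (hseg : ∀ s ∈ closedBall (0 : ℂ) ρ, p + s • e ∈ U) {k : ℕ}
    (hk : dd (slice f p e) ρ (fun _ : Fin (k + 1) => 0) ≠ 0) :
    ∃ η > 0, η ≤ ρ ∧ ∃ a > 0, ∀ w ∈ ball p η, (∀ s ∈ closedBall (0 : ℂ) ρ, w + s • e ∈ U) ∧
      ∀ ζ : Fin (k + 1) → ℂ, (∀ i, ζ i ∈ ball (0 : ℂ) η) → a ≤ ‖dd (slice f w e) ρ ζ‖ := by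
  set D := dd (slice f p e) ρ (fun _ : Fin (k + 1) => 0) with hD
  have hDpos : 0 < ‖D‖ := norm_pos_iff.2 hk
  -- the segments stay in `U`
  have hA : ∀ᶠ w in 𝓝 p, ∀ s ∈ closedBall (0 : ℂ) ρ, w + s • e ∈ U := by
    apply (isCompact_closedBall (0 : ℂ) ρ).eventually_forall_of_forall_eventually
    intro s hs
    have hc : ContinuousAt (fun z : E × ℂ => z.1 + z.2 • e) (p, s) := by fun_prop
    exact hc (hU.mem_nhds (hseg s hs))
  -- uniform convergence on the circle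
  have hB : ∀ᶠ x : E × (Fin (k + 1) → ℂ) in 𝓝 (p, fun _ => 0), ∀ s ∈ sphere (0 : ℂ) ρ,
      ‖(∏ i, (s - x.2 i))⁻¹ • slice f x.1 e s -
        (∏ _i : Fin (k + 1), (s - 0))⁻¹ • slice f p e s‖ ≤ ‖D‖ / (2 * ρ) := by
    apply (isCompact_sphere (0 : ℂ) ρ).eventually_forall_of_forall_eventually
    intro s hs
    have hs' : s ∈ closedBall (0 : ℂ) ρ := sphere_subset_closedBall hs
    have hs0 : s ≠ 0 := by
      intro h
      rw [h, mem_sphere, dist_self] at hs
      exact hρ.ne hs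
    have hc1 : ContinuousAt f (p + s • e) :=
      ((hf _ (hseg s hs')).differentiableAt (hU.mem_nhds (hseg s hs'))).continuousAt
    have hc2 : ContinuousAt (fun z : (E × (Fin (k + 1) → ℂ)) × ℂ => slice f z.1.1 e z.2)
        ((p, fun _ => 0), s) := by
      have : ContinuousAt (fun z : (E × (Fin (k + 1) → ℂ)) × ℂ => z.1.1 + z.2 • e)
        ((p, fun _ => 0), s) := by fun_prop
      exact ContinuousAt.comp (f := fun z : (E × (Fin (k + 1) → ℂ)) × ℂ => z.1.1 + z.2 • e)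
        (g := f) hc1 this
    have hc3 : ContinuousAt (fun z : (E × (Fin (k + 1) → ℂ)) × ℂ => (∏ i, (z.2 - z.1.2 i))⁻¹)
        ((p, fun _ => 0), s) := by
      apply ContinuousAt.inv₀
      · fun_prop
      · rw [Finset.prod_ne_zero_iff]
        intro i _
        simpa using hs0
    have hc4 : ContinuousAt (fun z : (E × (Fin (k + 1) → ℂ)) × ℂ => slice f p e z.2)
        ((p, fun _ => 0), s) := by
      have : ContinuousAt (fun z : (E × (Fin (k + 1) → ℂ)) × ℂ => p + z.2 • e)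
        ((p, fun _ => 0), s) := by fun_prop
      exact ContinuousAt.comp (f := fun z : (E × (Fin (k + 1) → ℂ)) × ℂ => p + z.2 • e)
        (g := f) hc1 this
    have hc5 : ContinuousAt (fun z : (E × (Fin (k + 1) → ℂ)) × ℂ =>
        (∏ _i : Fin (k + 1), (z.2 - 0))⁻¹) ((p, fun _ => 0), s) := by
      apply ContinuousAt.inv₀
      · fun_prop
      · rw [Finset.prod_ne_zero_iff]
        intro i _
        simpa using hs0
    have hc6 : ContinuousAt (fun z : (E × (Fin (k + 1) → ℂ)) × ℂ =>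
        ‖(∏ i, (z.2 - z.1.2 i))⁻¹ • slice f z.1.1 e z.2 -
        (∏ _i : Fin (k + 1), (z.2 - 0))⁻¹ • slice f p e z.2‖) ((p, fun _ => 0), s) :=
      ((hc3.smul hc2).sub (hc5.smul hc4)).norm
    have h0 : (0:ℝ) < ‖D‖ / (2 * ρ) := by positivity
    have h7 := hc6.eventually (p := fun y => y ≤ ‖D‖ / (2 * ρ)) (by
      simp only [sub_self, norm_zero]
      exact Iic_mem_nhds h0)
    exact h7
  obtain ⟨η1, hη1, hA'⟩ := Metric.eventually_nhds_iff_ball.1 hA
  obtain ⟨η2, hη2, hB'⟩ := Metric.eventually_nhds_iff_ball.1 hB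
  refine ⟨min η1 (min η2 ρ), by positivity, (min_le_right _ _).trans (min_le_right _ _), ‖D‖ / 2,
    by positivity, ?_⟩
  intro w hw
  have hw1 : w ∈ ball p η1 := ball_subset_ball (min_le_left _ _) hw
  have hsegw := hA' w hw1
  refine ⟨hsegw, ?_⟩
  intro ζ hζ
  have hζ2 : ∀ i, ζ i ∈ ball (0 : ℂ) η2 := fun i =>
    ball_subset_ball ((min_le_right _ _).trans (min_le_left _ _)) (hζ i)
  have hζρ : ∀ i, ζ i ∈ ball (0 : ℂ) ρ := fun i =>
    ball_subset_ball ((min_le_right _ _).trans (min_le_right _ _)) (hζ i)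
  have hx : ((w, ζ) : E × (Fin (k + 1) → ℂ)) ∈ ball ((p, fun _ => 0) : E × (Fin (k + 1) → ℂ)) η2 := by
    rw [mem_ball, Prod.dist_eq]
    apply max_lt
    · exact ball_subset_ball ((min_le_right _ _).trans (min_le_left _ _)) hw
    · rw [dist_pi_lt_iff hη2]
      exact hζ2
  have hbound := hB' (w, ζ) hx
  have hne : ∀ s ∈ sphere (0 : ℂ) ρ, ∀ i, s - ζ i ≠ 0 := by
    intro s hs i h
    have h1 := sub_eq_zero.1 h
    have h2 := hζρ i
    rw [mem_sphere] at hs
    rw [mem_ball, ← h1] at h2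
    exact (ne_of_lt h2) hs
  have hne0 : ∀ s ∈ sphere (0 : ℂ) ρ, s - 0 ≠ 0 := by
    intro s hs h
    rw [sub_zero] at h
    rw [h, mem_sphere, dist_self] at hs
    exact hρ.ne hs
  have hcw : ContinuousOn (slice f w e) (sphere 0 ρ) :=
    (slice_diffContOnCl hU hf hsegw).continuousOn_ball.mono sphere_subset_closedBall
  have hcp : ContinuousOn (slice f p e) (sphere 0 ρ) :=
    (slice_diffContOnCl hU hf hseg).continuousOn_ball.mono sphere_subset_closedBall
  have hi1 : CircleIntegrable (fun s => (∏ i, (s - ζ i))⁻¹ • slice f w e s) 0 ρ := by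
    apply ContinuousOn.circleIntegrable hρ.le
    refine ContinuousOn.fun_smul (f := fun s => (∏ i, (s - ζ i))⁻¹) (g := slice f w e) ?_ hcw
    apply ContinuousOn.inv₀
    · fun_prop
    · intro s hs
      exact Finset.prod_ne_zero_iff.2 fun i _ => hne s hs i
  have hi2 : CircleIntegrable (fun s => (∏ _i : Fin (k + 1), (s - 0))⁻¹ • slice f p e s) 0 ρ := by
    apply ContinuousOn.circleIntegrable hρ.le
    refine ContinuousOn.fun_smul (f := fun s => (∏ _i : Fin (k + 1), (s - 0))⁻¹)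
      (g := slice f p e) ?_ hcp
    apply ContinuousOn.inv₀
    · fun_prop
    · intro s hs
      exact Finset.prod_ne_zero_iff.2 fun i _ => hne0 s hs
  have hdiff : dd (slice f w e) ρ ζ - D = (2 * π * I : ℂ)⁻¹ • ∮ s in C(0, ρ),
      ((∏ i, (s - ζ i))⁻¹ • slice f w e s - (∏ _i : Fin (k + 1), (s - 0))⁻¹ • slice f p e s) := by
    rw [circleIntegral.integral_sub hi1 hi2, smul_sub]
    rfl
  have hle : ‖dd (slice f w e) ρ ζ - D‖ ≤ ρ * (‖D‖ / (2 * ρ)) := by
    rw [hdiff]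
    exact circleIntegral.norm_two_pi_i_inv_smul_integral_le_of_norm_le_const hρ.le hbound
  have hle2 : ρ * (‖D‖ / (2 * ρ)) = ‖D‖ / 2 := by
    field_simp
  rw [hle2] at hle
  have h3 : ‖D‖ - ‖dd (slice f w e) ρ ζ‖ ≤ ‖dd (slice f w e) ρ ζ - D‖ := by
    rw [← norm_neg (dd (slice f w e) ρ ζ - D), neg_sub]
    exact norm_sub_norm_le _ _
  linarith

/-- Area of the sublevel sets of the slices, uniformly in the base point. -/
theorem slice_area {f : E → ℂ} {U : Set E} (hU : IsOpen U) (hf : DifferentiableOn ℂ f U)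
    {p e : E} {ρ : ℝ} (hρ : 0 < ρ) (hseg : ∀ s ∈ closedBall (0 : ℂ) ρ, p + s • e ∈ U) {k : ℕ}
    (hk : dd (slice f p e) ρ (fun _ : Fin (k + 1) => 0) ≠ 0) :
    ∃ η > 0, ∃ K > 0, ∀ w ∈ ball p η, (∀ s ∈ ball (0 : ℂ) η, w + s • e ∈ U) ∧
      ∀ r : ℝ, 0 < r → r ≤ 1 → volume {ζ ∈ ball (0 : ℂ) η | ‖f (w + ζ • e)‖ ≤ r ^ (k + 1) / K} ≤
        ENNReal.ofReal (k * π * r ^ 2) := by
  obtain ⟨η, hη, hηρ, a, ha, hall⟩ := exists_slice_dd hU hf hρ hseg hk
  refine ⟨η, hη, (k + 2) / a, by positivity, ?_⟩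
  intro w hw
  obtain ⟨h1, h2⟩ := hall w hw
  refine ⟨fun s hs => h1 s (ball_subset_closedBall (ball_subset_ball hηρ hs)), ?_⟩
  intro r hr hr1
  have hno : ¬ ∃ ζ : Fin (k + 1) → ℂ,
      (∀ i, ζ i ∈ {ζ ∈ ball (0 : ℂ) η | ‖f (w + ζ • e)‖ ≤ r ^ (k + 1) / ((k + 2) / a)}) ∧
      ∀ i j, i ≠ j → r ≤ dist (ζ i) (ζ j) := by
    rintro ⟨ζ, hζ, hsep⟩
    have h3 := dd_norm_le (slice_diffContOnCl hU hf h1) ζ
      (fun i => ball_subset_ball hηρ (hζ i).1) hr hsep (fun i => (hζ i).2)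
    have h4 := h2 ζ (fun i => (hζ i).1)
    have h5 : ((k:ℝ) + 1) * ((r ^ k)⁻¹ * (r ^ (k + 1) / ((k + 2) / a))) =
        r * (a * ((k + 1) / (k + 2))) := by
      rw [pow_succ]
      field_simp
    rw [h5] at h3
    have h6 : a * (((k:ℝ) + 1) / (k + 2)) < a * 1 := by
      apply mul_lt_mul_of_pos_left _ ha
      rw [div_lt_one (by positivity)]
      linarith
    have h7 : 0 ≤ a * (((k:ℝ) + 1) / (k + 2)) := by positivity
    nlinarith
  obtain ⟨ζ, hζ⟩ := cover_of_no_sep k hno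
  refine (measure_mono hζ).trans ?_
  refine (measure_iUnion_fintype_le _ _).trans ?_
  simp only [Complex.volume_ball]
  rw [Finset.sum_const, Finset.card_univ, Fintype.card_fin, nsmul_eq_mul, mul_assoc,
    ENNReal.ofReal_mul (by positivity), ENNReal.ofReal_natCast, ENNReal.ofReal_mul (by positivity),
    ENNReal.ofReal_pow hr.le, mul_comm (ENNReal.ofReal π)]
  rw [← NNReal.coe_real_pi, ENNReal.ofReal_coe_nnreal]

end Vale.Agent.P271.LOCE
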