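import Mathlib
import Vale.Agent.P271.LOCE.Sub
import Vale.Agent.P271.LOCE.Avg

/-!
# P271, row 13-LOCE: (A5), small negative powers of a holomorphic function are integrable
-/

open MeasureTheory Metric Set Filter Topology Complex
open scoped ENNReal NNReal Real

namespace Vale.Agent.P271.LOCE

variable {E : Type*} [NormedAddCommGroup E] [NormedSpace ℂ E] [MeasurableSpace E] [BorelSpace E]
  [ProperSpace E] (μ : Measure E) [IsFiniteMeasureOnCompacts μ] [μ.IsAddRightInvariant]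

omit [MeasurableSpace E] [BorelSpace E] [ProperSpace E] in
theorem measurable_le_aux {f : E → ℂ} {U : Set E} [MeasurableSpace E] [BorelSpace E]
    (hU : IsOpen U) (hf : DifferentiableOn ℂ f U) (ε : ℝ) :
    MeasurableSet {w ∈ U | ‖f w‖ ≤ ε} := by
  have h1 : IsOpen (U ∩ (fun w => ‖f w‖) ⁻¹' (Ioi ε)) :=
    hf.continuousOn.norm.isOpen_inter_preimage hU isOpen_Ioi
  have h2 : {w ∈ U | ‖f w‖ ≤ ε} = U \ (U ∩ (fun w => ‖f w‖) ⁻¹' (Ioi ε)) := by
    ext w
    simp only [mem_ofPred_eq, Set.mem_sdiff, mem_inter_iff, mem_preimage, mem_Ioi, not_and, not_lt]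
    tauto
  rw [h2]
  exact hU.measurableSet.diff h1.measurableSet

/-- Sublevel sets of a holomorphic function which is not identically zero near `p`. -/
theorem sublevel {f : E → ℂ} {U : Set E} (hU : IsOpen U) (hf : DifferentiableOn ℂ f U)
    {p : E} (hp : p ∈ U) (hne : ∃ᶠ z in 𝓝 p, f z ≠ 0) :
    ∃ k : ℕ, ∃ K : ℝ, 0 < K ∧ ∃ C : ℝ≥0∞, C ≠ ∞ ∧ ∃ δ > 0, ball p δ ⊆ U ∧
      ∀ r : ℝ, 0 < r → r ≤ 1 → μ {w ∈ ball p δ | ‖f w‖ ≤ r ^ (k + 1) / K} ≤
        C * ENNReal.ofReal (r ^ 2) := by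
  obtain ⟨R, hR, hRU⟩ := Metric.isOpen_iff.1 hU p hp
  obtain ⟨z, hfz, hz⟩ := (hne.and_eventually (ball_mem_nhds p (half_pos hR))).exists
  set e := z - p with he
  have hen : ‖e‖ < R / 2 := by
    rw [he, ← dist_eq_norm]
    exact hz
  have hseg : ∀ s ∈ closedBall (0 : ℂ) (3 / 2 : ℝ), p + s • e ∈ U := by
    intro s hs
    apply hRU
    rw [mem_ball, dist_eq_norm, add_sub_cancel_left, norm_smul]
    rw [mem_closedBall_zero_iff] at hs
    have h1 := norm_nonneg s
    have h2 := norm_nonneg e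
    nlinarith
  obtain ⟨k, hk⟩ := exists_dd_ne (g := slice f p e) (ρ := 3 / 2) (by norm_num)
    (slice_diffContOnCl hU hf hseg) ⟨1, by simp; norm_num, by
      unfold slice
      rw [one_smul, he, add_sub_cancel]
      exact hfz⟩
  obtain ⟨η, hη, K, hK, hall⟩ := slice_area hU hf (by norm_num) hseg hk
  set η' := min η (η / (2 * (‖e‖ + 1))) with hη'
  have hη'0 : 0 < η' := by positivity
  have hη'e : η' * ‖e‖ ≤ η / 2 := by
    have h1 : η' ≤ η / (2 * (‖e‖ + 1)) := min_le_right _ _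
    have h2 : η / (2 * (‖e‖ + 1)) * ‖e‖ ≤ η / 2 := by
      rw [div_mul_eq_mul_div, div_le_div_iff₀ (by positivity) (by positivity)]
      nlinarith [norm_nonneg e]
    exact (mul_le_mul_of_nonneg_right h1 (norm_nonneg e)).trans h2
  have hvol0 : volume (ball (0 : ℂ) η') ≠ 0 := (measure_ball_pos volume _ hη'0).ne'
  have hvolt : volume (ball (0 : ℂ) η') ≠ ∞ := measure_ball_lt_top.ne
  have hμt : μ (ball p η) ≠ ∞ := measure_ball_lt_top.ne
  refine ⟨k, K, hK, ENNReal.ofReal (k * π) * μ (ball p η) / volume (ball (0 : ℂ) η'),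
    ENNReal.div_ne_top (ENNReal.mul_ne_top ENNReal.ofReal_ne_top hμt) hvol0, min R (η / 2),
    by positivity, (ball_subset_ball (min_le_left _ _)).trans hRU, ?_⟩
  intro r hr hr1
  have hS : MeasurableSet {w ∈ U | ‖f w‖ ≤ r ^ (k + 1) / K} := measurable_le_aux hU hf _
  have h := avg_upper μ e hS (D := ball (0 : ℂ) η') measurableSet_ball
    (B' := ball p (min R (η / 2))) (B := ball p η) measurableSet_ball (by
      intro ζ hζ w hw
      rw [mem_ball_zero_iff] at hζ
      rw [mem_ball, dist_eq_norm] at hw ⊢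
      have h1 : w - p = (w + ζ • e - p) - ζ • e := by abel
      rw [h1]
      refine (norm_sub_le _ _).trans_lt ?_
      rw [norm_smul]
      have h2 : ‖ζ‖ * ‖e‖ ≤ η' * ‖e‖ := mul_le_mul_of_nonneg_right hζ.le (norm_nonneg _)
      have h3 : min R (η / 2) ≤ η / 2 := min_le_right _ _
      linarith) (A := ENNReal.ofReal (k * π * r ^ 2)) (by
      intro w hw
      rw [Measure.restrict_apply]
      · refine (measure_mono ?_).trans ((hall w hw).2 r hr hr1)
        rintro ζ ⟨h1, h2⟩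
        exact ⟨ball_subset_ball (min_le_left _ _) h2, h1.2⟩
      · have : Measurable (fun ζ : ℂ => w + ζ • e) := by fun_prop
        exact this hS)
  have hset : {w ∈ ball p (min R (η / 2)) | ‖f w‖ ≤ r ^ (k + 1) / K} =
      ball p (min R (η / 2)) ∩ {w ∈ U | ‖f w‖ ≤ r ^ (k + 1) / K} := by
    ext w
    simp only [mem_ofPred_eq, mem_inter_iff]
    constructor
    · rintro ⟨h1, h2⟩
      exact ⟨h1, hRU (ball_subset_ball (min_le_left _ _) h1), h2⟩
    · rintro ⟨h1, h2, h3⟩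
      exact ⟨h1, h3⟩
  rw [hset]
  rw [ENNReal.ofReal_mul (by positivity)] at h
  rw [← ENNReal.le_div_iff_mul_le (Or.inl hvol0) (Or.inl hvolt)] at h
  refine h.trans (le_of_eq ?_)
  simp only [div_eq_mul_inv]
  ring

/-- The zero set is a null set. -/
theorem zero_null {f : E → ℂ} {U : Set E} (hU : IsOpen U) (hf : DifferentiableOn ℂ f U)
    {p : E} (hp : p ∈ U) (hne : ∃ᶠ z in 𝓝 p, f z ≠ 0) :
    ∃ δ > 0, ball p δ ⊆ U ∧ μ {w ∈ ball p δ | f w = 0} = 0 := by
  obtain ⟨k, K, hK, C, hC, δ, hδ, hsub, h⟩ := sublevel μ hU hf hp hne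
  refine ⟨δ, hδ, hsub, ?_⟩
  have h1 : ∀ r : ℝ, 0 < r → r ≤ 1 → μ {w ∈ ball p δ | f w = 0} ≤ C * ENNReal.ofReal (r ^ 2) := by
    intro r hr hr1
    refine (measure_mono ?_).trans (h r hr hr1)
    rintro w ⟨h2, h3⟩
    refine ⟨h2, ?_⟩
    rw [h3, norm_zero]
    positivity
  have h2 : Tendsto (fun n : ℕ => C * ENNReal.ofReal ((1 / ((n:ℝ) + 1)) ^ 2)) atTop (𝓝 0) := by
    have h3 : Tendsto (fun n : ℕ => (1 / ((n:ℝ) + 1)) ^ 2) atTop (𝓝 0) := by
      have := (tendsto_one_div_add_atTop_nhds_zero_nat (𝕜 := ℝ)).pow 2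
      simpa using this
    have h4 := ENNReal.tendsto_ofReal h3
    rw [ENNReal.ofReal_zero] at h4
    have h5 := ENNReal.Tendsto.const_mul (a := C) h4 (Or.inr hC)
    simpa using h5
  refine le_antisymm (ge_of_tendsto' h2 fun n => ?_) bot_le
  apply h1
  · positivity
  · rw [div_le_one (by positivity)]
    have : (0:ℝ) ≤ n := by positivity
    linarith

/-- (A5): a small negative power is integrable. -/
theorem pos {f : E → ℂ} {U : Set E} (hU : IsOpen U) (hf : DifferentiableOn ℂ f U)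
    {p : E} (hp : p ∈ U) (hne : ∃ᶠ z in 𝓝 p, f z ≠ 0) :
    ∃ t > 0, ∃ V ∈ 𝓝 p, ∫⁻ w in V, ENNReal.ofReal (Real.exp (-2 * (t * Real.log ‖f w‖))) ∂μ < ∞ := by
  obtain ⟨k, K, hK, C, hC, δ, hδ, hsub, h⟩ := sublevel μ hU hf hp hne
  obtain ⟨δ', hδ', hsub', hnull⟩ := zero_null μ hU hf hp hne
  set t : ℝ := 1 / (2 * (k + 1)) with ht
  have ht0 : 0 < t := by positivity
  set V := ball p (min δ δ') with hV
  have hV1 : V ⊆ ball p δ := ball_subset_ball (min_le_left _ _)
  have hV2 : V ⊆ ball p δ' := ball_subset_ball (min_le_right _ _)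
  set S : ℕ → Set E := fun j => {w ∈ U | ‖f w‖ ≤ (((1:ℝ) / 2) ^ j) ^ (k + 1) / K} with hSdef
  have hS : ∀ j, MeasurableSet (S j) := fun j => measurable_le_aux hU hf _
  set K' : ℝ := Real.exp (2 * t * Real.log K) with hK'
  have hK'0 : 0 < K' := Real.exp_pos _
  have hμS : ∀ j, μ.restrict V (S j) ≤ C * ENNReal.ofReal ((((1:ℝ) / 2) ^ j) ^ 2) := by
    intro j
    rw [Measure.restrict_apply (hS j)]
    refine (measure_mono ?_).trans (h (((1:ℝ) / 2) ^ j) (by positivity) (pow_le_one₀ (by norm_num)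
      (by norm_num)))
    rintro w ⟨h1, h2⟩
    exact ⟨hV1 h2, h1.2⟩
  have hbound : ∀ᵐ w ∂(μ.restrict V), ENNReal.ofReal (Real.exp (-2 * (t * Real.log ‖f w‖))) ≤
      ENNReal.ofReal K' + ∑' j, (S j).indicator (fun _ => ENNReal.ofReal (K' * 2 ^ (j + 1))) w := by
    have h0 : ∀ᵐ w ∂(μ.restrict V), f w ≠ 0 := by
      rw [ae_restrict_iff' measurableSet_ball, ae_iff]
      refine measure_mono_null ?_ hnull
      intro w hw
      simp only [mem_ofPred_eq, Classical.not_imp, not_not] at hw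
      exact ⟨hV2 hw.1, hw.2⟩
    have hVm : ∀ᵐ w ∂(μ.restrict V), w ∈ V := ae_restrict_mem measurableSet_ball
    filter_upwards [h0, hVm] with w hw hwV
    have hfw : 0 < ‖f w‖ := norm_pos_iff.2 hw
    by_cases hc : 1 ≤ K * ‖f w‖
    · refine le_trans ?_ le_self_add
      apply ENNReal.ofReal_le_ofReal
      rw [hK']
      apply Real.exp_le_exp.2
      have h1 := Real.log_nonneg hc
      rw [Real.log_mul hK.ne' hfw.ne'] at h1
      nlinarith
    · push Not at hc
      obtain ⟨j, hj1, hj2⟩ := exists_nat_pow_near_of_lt_one (x := K * ‖f w‖)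
        (y := ((1:ℝ) / 2) ^ (k + 1)) (by positivity) hc.le (by positivity)
        (pow_lt_one₀ (by norm_num) (by norm_num) (by omega))
      have hwS : w ∈ S j := by
        refine ⟨hsub (hV1 hwV), ?_⟩
        rw [le_div_iff₀ hK, mul_comm, ← pow_mul, mul_comm j, pow_mul]
        exact hj2
      refine le_trans ?_ le_add_self
      refine le_trans ?_ (ENNReal.le_tsum j)
      rw [indicator_of_mem hwS]
      apply ENNReal.ofReal_le_ofReal
      have h1 : -((j:ℝ) + 1) * (k + 1) * Real.log 2 ≤ Real.log (K * ‖f w‖) := by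
        have h2 := Real.log_le_log (by positivity) hj1.le
        rw [Real.log_pow, Real.log_pow, one_div, Real.log_inv] at h2
        push_cast at h2
        linarith
      rw [Real.log_mul hK.ne' hfw.ne'] at h1
      have h3 : K' * 2 ^ (j + 1) = Real.exp (2 * t * Real.log K + (j + 1) * Real.log 2) := by
        rw [Real.exp_add, hK']
        congr 1
        have h4 : ((j:ℝ) + 1) * Real.log 2 = ((j + 1 : ℕ) : ℝ) * Real.log 2 := by push_cast; ring
        rw [h4, Real.exp_nat_mul, Real.exp_log (by norm_num)]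
      rw [h3]
      apply Real.exp_le_exp.2
      have h5 : 2 * t * (((j:ℝ) + 1) * (k + 1) * Real.log 2) = (j + 1) * Real.log 2 := by
        rw [ht]
        field_simp
      nlinarith [mul_le_mul_of_nonneg_left h1 (by positivity : (0:ℝ) ≤ 2 * t)]
  refine ⟨t, ht0, V, ball_mem_nhds p (by positivity), ?_⟩
  refine (lintegral_mono_ae hbound).trans_lt ?_
  rw [lintegral_add_left measurable_const, lintegral_const, Measure.restrict_apply_univ,
    lintegral_tsum (fun j => (measurable_const.indicator (hS j)).aemeasurable)]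
  refine ENNReal.add_lt_top.2 ⟨ENNReal.mul_lt_top ENNReal.ofReal_lt_top measure_ball_lt_top, ?_⟩
  have hsum : Summable (fun j : ℕ => K' * 2 * ((1:ℝ) / 2) ^ j) :=
    (summable_geometric_of_lt_one (by norm_num) (by norm_num)).mul_left _
  have hle : ∀ j : ℕ, ∫⁻ w in V, (S j).indicator (fun _ => ENNReal.ofReal (K' * 2 ^ (j + 1))) w ∂μ ≤
      C * ENNReal.ofReal (K' * 2 * ((1:ℝ) / 2) ^ j) := by
    intro j
    rw [lintegral_indicator_const (hS j)]
    refine (mul_le_mul_right (hμS j) _).trans (le_of_eq ?_)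
    rw [mul_left_comm, ← ENNReal.ofReal_mul (by positivity)]
    congr 2
    have h6 : ((1:ℝ) / 2) ^ j * 2 ^ j = 1 := by
      rw [← mul_pow]
      norm_num
    calc K' * 2 ^ (j + 1) * (((1:ℝ) / 2) ^ j) ^ 2 =
        K' * 2 * ((1:ℝ) / 2) ^ j * (((1:ℝ) / 2) ^ j * 2 ^ j) := by ring
      _ = K' * 2 * ((1:ℝ) / 2) ^ j := by rw [h6, mul_one]
  refine (ENNReal.tsum_le_tsum hle).trans_lt ?_
  rw [ENNReal.tsum_mul_left]
  exact ENNReal.mul_lt_top hC.lt_top hsum.tsum_ofReal_lt_top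

end Vale.Agent.P271.LOCE
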