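import Mathlib
import Vale.Agent.P271.LOCE.Pos

/-!
# P271, row 13-LOCE: (A7), `|f|^{-2}` is not integrable near a zero of `f`
-/

open MeasureTheory Metric Set Filter Topology Complex
open scoped ENNReal NNReal Real

namespace Vale.Agent.P271.LOCE

section
variable {E : Type*} [NormedAddCommGroup E] [NormedSpace ℂ E]

/-- A function of one variable which is small at the centre and large on a circle has a zero. -/
theorem exists_zero {g : ℂ → ℂ} {ρ δ : ℝ} (hρ : 0 < ρ) (hg : DiffContOnCl ℂ g (ball 0 ρ))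
    (hδ : 0 < δ) (hs : ∀ s ∈ sphere (0 : ℂ) ρ, δ ≤ ‖g s‖) (h0 : ‖g 0‖ < δ) :
    ∃ z ∈ ball (0 : ℂ) ρ, g z = 0 := by
  by_contra hcon
  push Not at hcon
  have hne : ∀ z ∈ closure (ball (0 : ℂ) ρ), g z ≠ 0 := by
    intro z hz
    rw [closure_ball _ hρ.ne'] at hz
    rcases (mem_closedBall.1 hz).lt_or_eq with h | h
    · exact hcon z h
    · intro h1
      have := hs z h
      rw [h1, norm_zero] at this
      linarith
  have hinv : DiffContOnCl ℂ (fun z => (g z)⁻¹) (ball 0 ρ) := hg.inv hne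
  have h1 : ‖(g 0)⁻¹‖ ≤ δ⁻¹ := by
    refine Complex.norm_le_of_forall_mem_frontier_norm_le (U := ball (0 : ℂ) ρ) isBounded_ball hinv
      ?_ (subset_closure (mem_ball_self hρ))
    intro z hz
    rw [frontier_ball _ hρ.ne'] at hz
    rw [norm_inv]
    exact inv_anti₀ hδ (hs z hz)
  rw [norm_inv] at h1
  have h2 : 0 < ‖g 0‖ := norm_pos_iff.2 (hcon 0 (mem_ball_self hρ))
  have h3 := (inv_le_inv₀ h2 hδ).1 h1
  linarith

/-- The sublevel set of a function with a zero contains a disc. -/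
theorem area_lower {g : ℂ → ℂ} {ρ M : ℝ} (hρ : 0 < ρ) (hM : 0 < M)
    (hg : DifferentiableOn ℂ g (ball 0 (2 * ρ)))
    (hb : ∀ s ∈ ball (0 : ℂ) (2 * ρ), ‖g s‖ ≤ M) {z : ℂ} (hz : z ∈ ball (0 : ℂ) ρ) (hgz : g z = 0)
    {ε : ℝ} (hε : 0 < ε) (hεM : ε ≤ M) :
    ball z (ε * ρ / M) ⊆ {ζ ∈ ball (0 : ℂ) (2 * ρ) | ‖g ζ‖ ≤ ε} := by
  have hsub : ball z ρ ⊆ ball (0 : ℂ) (2 * ρ) := by
    intro y hy
    rw [mem_ball_zero_iff]
    rw [mem_ball_zero_iff] at hz
    rw [mem_ball, dist_eq_norm] at hy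
    have h1 : y = (y - z) + z := by ring
    rw [h1]
    refine (norm_add_le _ _).trans_lt ?_
    linarith
  have hmaps : MapsTo g (ball z ρ) (closedBall (g z) M) := by
    intro y hy
    rw [hgz, mem_closedBall_zero_iff]
    exact hb y (hsub hy)
  intro y hy
  have hyρ : y ∈ ball z ρ := by
    refine ball_subset_ball ?_ hy
    rw [div_le_iff₀ hM]
    nlinarith
  refine ⟨hsub hyρ, ?_⟩
  have h1 := Complex.dist_le_div_mul_dist_of_mapsTo_ball (hg.mono hsub) hmaps hyρ
  rw [hgz, dist_zero_right] at h1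
  refine h1.trans ?_
  have h2 : dist y z ≤ ε * ρ / M := (mem_ball.1 hy).le
  calc M / ρ * dist y z ≤ M / ρ * (ε * ρ / M) := by gcongr
    _ = ε := by field_simp

/-- A direction in which a holomorphic function does not vanish identically. -/
theorem exists_direction {f : E → ℂ} {U : Set E} (hU : IsOpen U) (hf : DifferentiableOn ℂ f U)
    {p : E} (hp : p ∈ U) (hne : ∃ᶠ z in 𝓝 p, f z ≠ 0) :
    ∃ e : E, ∀ᶠ s in 𝓝[≠] (0 : ℂ), f (p + s • e) ≠ 0 := by
  obtain ⟨R, hR, hRU⟩ := Metric.isOpen_iff.1 hU p hp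
  obtain ⟨z, hfz, hz⟩ := (hne.and_eventually (ball_mem_nhds p (half_pos hR))).exists
  set e := z - p with he
  have hen : ‖e‖ < R / 2 := by
    rw [he, ← dist_eq_norm]
    exact hz
  have hseg : ∀ s ∈ closedBall (0 : ℂ) (3 / 2 : ℝ), p + s • e ∈ U := by
    intro s hs
    apply hRU
    rw [mem_ball, dist_eq_norm, add_sub_cancel_left, norm_smul]
    rw [mem_closedBall_zero_iff] at hs
    have h1 := norm_nonneg s
    have h2 := norm_nonneg e
    nlinarith
  refine ⟨e, ?_⟩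
  have hd : DifferentiableOn ℂ (slice f p e) (ball 0 (3 / 2)) :=
    (slice_diffContOnCl hU hf hseg).differentiableOn
  have han : AnalyticOnNhd ℂ (slice f p e) (ball 0 (3 / 2)) := hd.analyticOnNhd isOpen_ball
  rcases (han 0 (mem_ball_self (by norm_num))).eventually_eq_zero_or_eventually_ne_zero with h | h
  · exfalso
    have h1 := han.eqOn_zero_of_preconnected_of_eventuallyEq_zero
      (convex_ball _ _).isPreconnected (mem_ball_self (by norm_num)) h
    have h2 : slice f p e 1 = 0 := h1 (by simp; norm_num)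
    unfold slice at h2
    rw [one_smul, he, add_sub_cancel] at h2
    exact hfz h2
  · exact h

end

variable {E : Type*} [NormedAddCommGroup E] [NormedSpace ℂ E] [MeasurableSpace E] [BorelSpace E]
  [ProperSpace E] (μ : Measure E) [μ.IsAddHaarMeasure]

/-- Lower bound for the volume of the sublevel sets near a zero. -/
theorem sublevel_lower {f : E → ℂ} {U : Set E} (hU : IsOpen U) (hf : DifferentiableOn ℂ f U)
    {p : E} (hp : p ∈ U) (hne : ∃ᶠ z in 𝓝 p, f z ≠ 0) (hfp : f p = 0) {δ : ℝ} (hδ : 0 < δ) :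
    ∃ c : ℝ≥0∞, c ≠ 0 ∧ ∃ ε0 > 0, ∀ ε : ℝ, 0 < ε → ε ≤ ε0 →
      c * ENNReal.ofReal (ε ^ 2) ≤ μ {w ∈ ball p δ | ‖f w‖ ≤ ε} := by
  obtain ⟨e, he⟩ := exists_direction hU hf hp hne
  rw [eventually_nhdsWithin_iff, Metric.eventually_nhds_iff_ball] at he
  obtain ⟨τ, hτ, he⟩ := he
  obtain ⟨R, hR, hRU⟩ := Metric.isOpen_iff.1 hU p hp
  set R' := min R δ with hR'
  have hR'0 : 0 < R' := by positivity
  set ρ := min (τ / 2) (R' / (8 * (‖e‖ + 1))) with hρdef
  have hρ : 0 < ρ := by positivity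
  have hρτ : ρ < τ := (min_le_left _ _).trans_lt (by linarith)
  have hρe : 2 * ρ * ‖e‖ ≤ R' / 4 := by
    have h1 : ρ ≤ R' / (8 * (‖e‖ + 1)) := min_le_right _ _
    have h2 : R' / (8 * (‖e‖ + 1)) * ‖e‖ ≤ R' / 8 := by
      rw [div_mul_eq_mul_div, div_le_div_iff₀ (by positivity) (by positivity)]
      nlinarith [norm_nonneg e]
    have h3 := mul_le_mul_of_nonneg_right h1 (norm_nonneg e)
    linarith
  have hseg : ∀ s ∈ closedBall (0 : ℂ) (2 * ρ), p + s • e ∈ U := by
    intro s hs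
    apply hRU
    rw [mem_ball, dist_eq_norm, add_sub_cancel_left, norm_smul]
    rw [mem_closedBall_zero_iff] at hs
    have h1 : ‖s‖ * ‖e‖ ≤ 2 * ρ * ‖e‖ := mul_le_mul_of_nonneg_right hs (norm_nonneg _)
    have h2 : R' ≤ R := min_le_left _ _
    linarith
  have hcont : ContinuousOn (fun s : ℂ => ‖f (p + s • e)‖) (closedBall 0 (2 * ρ)) :=
    (slice_diffContOnCl hU hf hseg).continuousOn_ball.norm
  obtain ⟨M0, hM0⟩ := (isCompact_closedBall (0 : ℂ) (2 * ρ)).bddAbove_image hcont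
  have hM0' : ∀ s ∈ closedBall (0 : ℂ) (2 * ρ), ‖f (p + s • e)‖ ≤ M0 := fun s hs =>
    hM0 (mem_image_of_mem _ hs)
  have hM00 : 0 ≤ M0 := (norm_nonneg _).trans (hM0' 0 (mem_closedBall_self (by positivity)))
  have hsph : sphere (0 : ℂ) ρ ⊆ closedBall (0 : ℂ) (2 * ρ) := by
    intro s hs
    rw [mem_sphere] at hs
    rw [mem_closedBall, hs]
    linarith
  obtain ⟨s0, hs0, hmin⟩ := (isCompact_sphere (0 : ℂ) ρ).exists_isMinOn
    (NormedSpace.sphere_nonempty.2 hρ.le) (hcont.mono hsph)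
  have hδ1 : 0 < ‖f (p + s0 • e)‖ := by
    rw [norm_pos_iff]
    rw [mem_sphere_zero_iff_norm] at hs0
    apply he
    · rw [mem_ball_zero_iff, hs0]
      exact hρτ
    · intro h
      rw [mem_singleton_iff] at h
      rw [h, norm_zero] at hs0
      exact hρ.ne hs0
  set δ0 := ‖f (p + s0 • e)‖ / 2 with hδ0
  have hδ00 : 0 < δ0 := by positivity
  have hctf : ∀ s ∈ closedBall (0 : ℂ) (2 * ρ),
      ContinuousAt (fun z : E × ℂ => ‖f (z.1 + z.2 • e)‖) (p, s) := by
    intro s hs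
    have hc1 : ContinuousAt f (p + s • e) :=
      ((hf _ (hseg s hs)).differentiableAt (hU.mem_nhds (hseg s hs))).continuousAt
    have hc : ContinuousAt (fun z : E × ℂ => z.1 + z.2 • e) (p, s) := by fun_prop
    exact (ContinuousAt.comp (f := fun z : E × ℂ => z.1 + z.2 • e) (g := f) hc1 hc).norm
  have hA : ∀ᶠ w in 𝓝 p, ∀ s ∈ closedBall (0 : ℂ) (2 * ρ), w + s • e ∈ U := by
    apply (isCompact_closedBall (0 : ℂ) (2 * ρ)).eventually_forall_of_forall_eventually
    intro s hs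
    have hc : ContinuousAt (fun z : E × ℂ => z.1 + z.2 • e) (p, s) := by fun_prop
    exact hc (hU.mem_nhds (hseg s hs))
  have hB : ∀ᶠ w in 𝓝 p, ∀ s ∈ closedBall (0 : ℂ) (2 * ρ), ‖f (w + s • e)‖ < M0 + 1 := by
    apply (isCompact_closedBall (0 : ℂ) (2 * ρ)).eventually_forall_of_forall_eventually
    intro s hs
    exact (hctf s hs).eventually_lt continuousAt_const (by
      have := hM0' s hs
      simp only
      linarith)
  have hC : ∀ᶠ w in 𝓝 p, ∀ s ∈ sphere (0 : ℂ) ρ, δ0 < ‖f (w + s • e)‖ := by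
    apply (isCompact_sphere (0 : ℂ) ρ).eventually_forall_of_forall_eventually
    intro s hs
    refine ContinuousAt.eventually_lt continuousAt_const (hctf s (hsph hs)) ?_
    have h1 := isMinOn_iff.1 hmin s hs
    simp only
    linarith
  have hD : ∀ᶠ w in 𝓝 p, ‖f w‖ < δ0 := by
    have hc1 : ContinuousAt f p := ((hf _ hp).differentiableAt (hU.mem_nhds hp)).continuousAt
    refine hc1.norm.eventually_lt continuousAt_const ?_
    rw [hfp, norm_zero]
    exact hδ00
  obtain ⟨η, hη, hall⟩ := Metric.eventually_nhds_iff_ball.1 (hA.and (hB.and (hC.and hD)))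
  set η' := min η (R' / 2) with hη'
  have hη'0 : 0 < η' := by positivity
  have hvol0 : volume (ball (0 : ℂ) (2 * ρ)) ≠ 0 := (measure_ball_pos volume _ (by positivity)).ne'
  have hvolt : volume (ball (0 : ℂ) (2 * ρ)) ≠ ∞ := measure_ball_lt_top.ne
  have hμ0 : μ (ball p η') ≠ 0 := (measure_ball_pos μ _ hη'0).ne'
  set a : ℝ := π * (ρ / (M0 + 1)) ^ 2 with ha
  have ha0 : 0 < a := by positivity
  refine ⟨ENNReal.ofReal a * μ (ball p η') / volume (ball (0 : ℂ) (2 * ρ)), ?_, M0 + 1,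
    by positivity, ?_⟩
  · rw [Ne, ENNReal.div_eq_zero_iff, not_or]
    refine ⟨mul_ne_zero ?_ hμ0, hvolt⟩
    rw [Ne, ENNReal.ofReal_eq_zero, not_le]
    exact ha0
  intro ε hε hεM
  have hS : MeasurableSet {w ∈ U | ‖f w‖ ≤ ε} := measurable_le_aux hU hf _
  have h := avg_lower μ e hS (D := ball (0 : ℂ) (2 * ρ)) measurableSet_ball
    (B' := ball p δ) (B := ball p η') measurableSet_ball (by
      intro ζ hζ w hw
      rw [mem_ball_zero_iff] at hζ
      rw [mem_ball, dist_eq_norm] at hw ⊢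
      have h1 : w + ζ • e - p = (w - p) + ζ • e := by abel
      rw [h1]
      refine (norm_add_le _ _).trans_lt ?_
      rw [norm_smul]
      have h2 : ‖ζ‖ * ‖e‖ ≤ 2 * ρ * ‖e‖ := mul_le_mul_of_nonneg_right hζ.le (norm_nonneg _)
      have h3 : R' ≤ δ := min_le_right _ _
      have h4 : η' ≤ R' / 2 := min_le_right _ _
      linarith) (A := ENNReal.ofReal (a * ε ^ 2)) (by
      intro w hw
      obtain ⟨hwA, hwB, hwC, hwD⟩ := hall w (ball_subset_ball (min_le_left _ _) hw)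
      have hsub1 : closedBall (0 : ℂ) ρ ⊆ closedBall (0 : ℂ) (2 * ρ) :=
        closedBall_subset_closedBall (by linarith)
      obtain ⟨z, hz, hgz⟩ := exists_zero (g := slice f w e) hρ
        (slice_diffContOnCl hU hf fun s hs => hwA s (hsub1 hs)) hδ00
        (fun s hs => (hwC s hs).le) (by
          unfold slice
          rw [zero_smul, add_zero]
          exact hwD)
      have hsub2 := area_lower (g := slice f w e) (M := M0 + 1) hρ (by positivity)
        (slice_diffContOnCl hU hf hwA).differentiableOn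
        (fun s hs => (hwB s (ball_subset_closedBall hs)).le) hz hgz hε hεM
      have hvolb : ENNReal.ofReal (a * ε ^ 2) = volume (ball z (ε * ρ / (M0 + 1))) := by
        rw [Complex.volume_ball, ← ENNReal.ofReal_coe_nnreal, NNReal.coe_real_pi,
          ← ENNReal.ofReal_pow (by positivity), ← ENNReal.ofReal_mul (by positivity), ha]
        congr 1
        field_simp
      rw [hvolb, Measure.restrict_apply]
      · refine measure_mono ?_
        intro ζ hζ
        obtain ⟨h1, h2⟩ := hsub2 hζ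
        exact ⟨⟨hwA ζ (ball_subset_closedBall h1), h2⟩, h1⟩
      · have : Measurable (fun ζ : ℂ => w + ζ • e) := by fun_prop
        exact this hS)
  have hsub3 : ball p δ ∩ {w ∈ U | ‖f w‖ ≤ ε} ⊆ {w ∈ ball p δ | ‖f w‖ ≤ ε} := by
    rintro w ⟨h1, h2, h3⟩
    exact ⟨h1, h3⟩
  rw [ENNReal.ofReal_mul ha0.le] at h
  rw [← ENNReal.div_le_iff_le_mul (Or.inl hvol0) (Or.inl hvolt)] at h
  refine le_trans (le_of_eq ?_) (h.trans (measure_mono hsub3))
  simp only [div_eq_mul_inv]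
  ring

/-- (A7): `|f|^{-2κ}`, `κ ≥ 1`, is not locally integrable at a zero of `f`. -/
theorem nonint {f : E → ℂ} {U : Set E} (hU : IsOpen U) (hf : DifferentiableOn ℂ f U)
    {p : E} (hp : p ∈ U) (hne : ∃ᶠ z in 𝓝 p, f z ≠ 0) (hfp : f p = 0) {κ : ℝ} (hκ : 1 ≤ κ)
    {V : Set E} (hV : V ∈ 𝓝 p) :
    ∫⁻ w in V, ENNReal.ofReal (Real.exp (-2 * (κ * Real.log ‖f w‖))) ∂μ = ∞ := by
  by_contra hcon
  obtain ⟨k, K, hK, C, hC, δ1, hδ1, hsub1, h1⟩ := sublevel μ hU hf hp hne
  obtain ⟨δ2, hδ2, hsub2, hnull⟩ := zero_null μ hU hf hp hne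
  obtain ⟨δ3, hδ3, hsub3⟩ := Metric.mem_nhds_iff.1 hV
  set δ := min δ1 (min δ2 δ3) with hδdef
  have hδ : 0 < δ := by positivity
  obtain ⟨c, hc, ε0, hε0, hlow⟩ := sublevel_lower μ hU hf hp hne hfp hδ
  set B := ball p δ with hB
  have hBV : B ⊆ V := (ball_subset_ball ((min_le_right _ _).trans (min_le_right _ _))).trans hsub3
  have hfin : ∫⁻ w in B, ENNReal.ofReal (Real.exp (-2 * (κ * Real.log ‖f w‖))) ∂μ ≠ ∞ :=
    ne_top_of_le_ne_top hcon (lintegral_mono_set hBV)
  set ε : ℕ → ℝ := fun n => (1 / ((n:ℝ) + 1)) ^ (k + 1) / K with hεdef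
  have hεpos : ∀ n, 0 < ε n := fun n => by positivity
  have hr1 : ∀ n : ℕ, 1 / ((n:ℝ) + 1) ≤ 1 := by
    intro n
    rw [div_le_one (by positivity)]
    have : (0:ℝ) ≤ n := by positivity
    linarith
  have hr0 : Tendsto (fun n : ℕ => 1 / ((n:ℝ) + 1)) atTop (𝓝 0) :=
    tendsto_one_div_add_atTop_nhds_zero_nat
  have hε0' : Tendsto ε atTop (𝓝 0) := by
    have h2 := (hr0.pow (k + 1)).div_const K
    rw [zero_pow (by omega), zero_div] at h2
    exact h2
  set S : ℕ → Set E := fun n => {w ∈ U | ‖f w‖ ≤ ε n} with hSdef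
  have hS : ∀ n, MeasurableSet (S n) := fun n => measurable_le_aux hU hf _
  have hBU : B ⊆ U := (ball_subset_ball (min_le_left _ _)).trans hsub1
  have hμS : ∀ n, (μ.restrict B) (S n) ≤ C * ENNReal.ofReal ((1 / ((n:ℝ) + 1)) ^ 2) := by
    intro n
    rw [Measure.restrict_apply (hS n)]
    refine (measure_mono ?_).trans (h1 (1 / ((n:ℝ) + 1)) (by positivity) (hr1 n))
    rintro w ⟨h2, h3⟩
    exact ⟨ball_subset_ball (min_le_left _ _) h3, h2.2⟩
  have hzero : Tendsto ((μ.restrict B) ∘ S) atTop (𝓝 0) := by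
    have h3 : Tendsto (fun n : ℕ => (1 / ((n:ℝ) + 1)) ^ 2) atTop (𝓝 0) := by
      have := hr0.pow 2
      simpa using this
    have h4 := ENNReal.tendsto_ofReal h3
    rw [ENNReal.ofReal_zero] at h4
    have h5 := ENNReal.Tendsto.const_mul (a := C) h4 (Or.inr hC)
    rw [mul_zero] at h5
    exact tendsto_of_tendsto_of_tendsto_of_le_of_le tendsto_const_nhds h5 (fun _ => bot_le) hμS
  have hlim := tendsto_setLIntegral_zero hfin hzero
  have hev : ∀ᶠ n in atTop, c ≤ ∫⁻ w in S n, ENNReal.ofReal (Real.exp (-2 * (κ * Real.log ‖f w‖)))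
      ∂(μ.restrict B) := by
    have h2 : ∀ᶠ n in atTop, ε n ≤ min ε0 1 := by
      have := hε0'.eventually (Iic_mem_nhds (show (0:ℝ) < min ε0 1 by positivity))
      exact this
    filter_upwards [h2] with n hn
    have hn0 : ε n ≤ ε0 := hn.trans (min_le_left _ _)
    have hn1 : ε n ≤ 1 := hn.trans (min_le_right _ _)
    have h3 : c * ENNReal.ofReal (ε n ^ 2) ≤ (μ.restrict B) (S n) := by
      rw [Measure.restrict_apply (hS n)]
      refine (hlow (ε n) (hεpos n) hn0).trans (measure_mono ?_)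
      rintro w ⟨h4, h5⟩
      exact ⟨⟨hBU h4, h5⟩, h4⟩
    have h0 : ∀ᵐ w ∂(μ.restrict B), f w ≠ 0 := by
      rw [ae_restrict_iff' measurableSet_ball, ae_iff]
      refine measure_mono_null ?_ hnull
      intro w hw
      simp only [mem_ofPred_eq, Classical.not_imp, not_not] at hw
      exact ⟨ball_subset_ball ((min_le_right _ _).trans (min_le_left _ _)) hw.1, hw.2⟩
    have h5 : ∀ᵐ w ∂((μ.restrict B).restrict (S n)), ENNReal.ofReal ((ε n ^ 2)⁻¹) ≤
        ENNReal.ofReal (Real.exp (-2 * (κ * Real.log ‖f w‖))) := by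
      filter_upwards [ae_restrict_of_ae h0, ae_restrict_mem (hS n)] with w hw hwS
      apply ENNReal.ofReal_le_ofReal
      have hfw : 0 < ‖f w‖ := norm_pos_iff.2 hw
      have h6 : Real.log ‖f w‖ ≤ Real.log (ε n) := Real.log_le_log hfw hwS.2
      have h7 : Real.log (ε n) ≤ 0 := Real.log_nonpos (hεpos n).le hn1
      have h8 : (ε n ^ 2)⁻¹ = Real.exp (-2 * Real.log (ε n)) := by
        rw [neg_mul, Real.exp_neg]
        congr 1
        have h9 : 2 * Real.log (ε n) = ((2 : ℕ) : ℝ) * Real.log (ε n) := by norm_num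
        rw [h9, Real.exp_nat_mul, Real.exp_log (hεpos n)]
      rw [h8]
      apply Real.exp_le_exp.2
      nlinarith
    calc c = c * ENNReal.ofReal (ε n ^ 2) * ENNReal.ofReal ((ε n ^ 2)⁻¹) := by
          rw [mul_assoc, ← ENNReal.ofReal_mul (by positivity),
            mul_inv_cancel₀ (pow_pos (hεpos n) 2).ne', ENNReal.ofReal_one, mul_one]
      _ ≤ (μ.restrict B) (S n) * ENNReal.ofReal ((ε n ^ 2)⁻¹) := by gcongr
      _ = ∫⁻ w in S n, ENNReal.ofReal ((ε n ^ 2)⁻¹) ∂(μ.restrict B) := by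
          rw [lintegral_const, Measure.restrict_apply_univ, mul_comm]
      _ ≤ _ := lintegral_mono_ae h5
  have hle := le_of_tendsto_of_tendsto tendsto_const_nhds hlim hev
  exact hc (le_antisymm hle bot_le)

end Vale.Agent.P271.LOCE
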