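import Mathlib
import Vale.Agent.P271.Inst.Stat
import Vale.Agent.P271.LOCE.NonInt

/-!
# P271, row 13-LOCE: the local statements (A5), (A7) in the form of `Inst/Stat.lean`
-/

open MeasureTheory Metric Set Filter Topology
open scoped ENNReal

namespace Vale.Agent.P271.LOCE

open Vale.Agent.P271.Inst

theorem analyticAt_nhd {m : ℕ} {a : Fin m → ℂ} {f : (Fin m → ℂ) → ℂ} (hf : AnalyticAt ℂ f a) :
    ∃ U : Set (Fin m → ℂ), IsOpen U ∧ a ∈ U ∧ DifferentiableOn ℂ f U := by
  obtain ⟨V, hV, h⟩ := hf.exists_mem_nhds_analyticOnNhd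
  obtain ⟨U, hUV, hU, ha⟩ := _root_.mem_nhds_iff.1 hV
  exact ⟨U, hU, ha, fun x hx => (h x (hUV hx)).differentiableAt.differentiableWithinAt⟩

theorem a5Stat : A5Stat := by
  intro m a f hf hn
  obtain ⟨U, hU, ha, hd⟩ := analyticAt_nhd hf
  obtain ⟨t, ht, V, hV, h⟩ := pos (volume : Measure (Fin m → ℂ)) hU hd ha (by
    intro h
    apply hn
    filter_upwards [h] with x hx
    simpa using hx)
  exact ⟨t, ht, V, hV, h⟩

theorem a7Stat : A7Stat := by
  intro m a f hf hn h0 κ hκ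
  obtain ⟨U, hU, ha, hd⟩ := analyticAt_nhd hf
  obtain ⟨V, hV, h⟩ := hκ
  by_contra hc
  push Not at hc
  have h2 := nonint (volume : Measure (Fin m → ℂ)) hU hd ha (by
    intro h
    apply hn
    filter_upwards [h] with x hx
    simpa using hx) h0 hc hV
  rw [h2] at h
  exact lt_irrefl _ h

end Vale.Agent.P271.LOCE
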